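import Vale.Agent.P284.H113.Final

/-!
# P284: manifolds dominated by a uniformly continuous map from `ℂᴺ`

A compact connected complex manifold `X` with pseudo-effective canonical bundle which is dominated
by a uniformly continuous holomorphic map `F : ℂᴺ → X` is a finite étale quotient of a complex
torus; its fundamental group is virtually abelian.
-/

open scoped Manifold ContDiff

namespace Vale.Agent.Results.P284.BrodyDominated

open Vale.Agent.P284.H113

/-- Let `X` be a compact connected complex manifold, modelled on the finite-dimensional complex
vector space `E`, with pseudo-effective canonical bundle. Let `E'` be a finite-dimensional complex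
vector space and `F : E' → X` a holomorphic, uniformly continuous map which is submersive at some
point. Then the restriction of `F` to some affine copy of `E` in `E'` is a surjective covering map
which is invariant under the translations by an `ℝ`-basis of `E`, and the fundamental group of `X`
has an abelian subgroup of finite index. -/
theorem result {E E' : Type*} [NormedAddCommGroup E] [NormedSpace ℂ E] [FiniteDimensional ℂ E]
    [NormedAddCommGroup E'] [NormedSpace ℂ E'] [FiniteDimensional ℂ E']
    {X : Type*} [UniformSpace X] [CompactSpace X] [T2Space X] [ConnectedSpace X]
    [ChartedSpace E X] [IsManifold 𝓘(ℂ, E) ω X]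
    (hK : CanonicalPsef E X) (F : E' → X) (hF : IsDominating E F) (hu : UniformContinuous F) :
    (∃ (z₀ : E') (j : E →L[ℂ] E'), Function.Injective j ∧
      IsPeriodicCovering fun w => F (z₀ + j w)) ∧
    ∀ x : X, VirtuallyAbelian (FundamentalGroup X x) := by
  obtain ⟨⟨z₀, j, B, h1, h2, h3, h4⟩, h5⟩ := main hK hF.1 hu hF.2
  exact ⟨⟨z₀, j, h1, h2, h3, B, h4⟩, h5⟩

end Vale.Agent.Results.P284.BrodyDominated
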