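import Vale.Agent.P284.H540.Main
import Vale.Agent.P281.H540.Stmt

/-!
# P284: special manifolds generically finite over hyperbolic manifolds

Let `X₀` be a compact connected Kähler manifold of dimension `n` which is Brody hyperbolic, or has
a Hermitian metric of nonpositive holomorphic sectional curvature with a further property. If a
special manifold `X` of dimension `n` has a holomorphic map to `X₀` which is étale at some point
(for instance `X = X₀`), then `n = 0` and `X` is a point; in particular Campana's abelianity
conjecture holds for all these `X`.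
-/

open scoped Manifold ContDiff ComplexOrder

namespace Vale.Agent.Results.P284.HyperbolicCase

open Vale.Agent.P272.K Vale.Agent.P284.H540 Vale.Agent.P281.H540

theorem result (n : ℕ) (X : Type) [TopologicalSpace X] [ConnectedSpace X] [ChartedSpace (Cm n) X]
    (hX : IsComplexMfd n X) (hs : IsSpecial (Cm n) X)
    (X₀ : Type) [TopologicalSpace X₀] [ChartedSpace (Cm n) X₀] (h₀ : IsNegative n X₀)
    (q : X → X₀) (hq : IsGenEtale (Cm n) q) :
    n = 0 ∧ Subsingleton X ∧ ∀ x : X, VirtuallyAbelian (FundamentalGroup X x) := by
  rcases Nat.eq_zero_or_pos n with rfl | hn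
  · have : Subsingleton X := subsingleton_of_zero
    exact ⟨rfl, inferInstance, fun x => virtuallyAbelian_of_subsingleton x⟩
  · exfalso
    have : IsManifold 𝓘(ℂ, Cm n) ω X₀ := h₀.holo
    have : IsManifold 𝓘(ℂ, Cm n) ω X := hX
    have hjet := jets n hn X₀ h₀
    obtain ⟨hq1, x, hx⟩ := hq
    have hc : IsEffective (Cm n) (fun (_ : PUnit) (_ : X) (_ : X → ℂ) => False)
        (fun _ => (0 : ℝ)) :=
      ⟨by simp, fun _ => ⟨0, by simp, le_rfl⟩, fun _ h => absurd rfl h⟩
    exact not_special hn (kodGE_jet hjet (fun z => hq1 z) ⟨x, det_ne_of_bij hx⟩ hc) hs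

end Vale.Agent.Results.P284.HyperbolicCase
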